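import Vale.Agent.P047.Bound

/-!
# P047: the weak square-root bound is equivalent to the sharp one in every odd degree
-/

namespace Vale.Agent.Results.P047.WeakIffStrong

open Vale.Agent.P047

/-- the set of all values `∑ᵢ f̂({i})`, over all `n ≥ 1` and all Boolean `f` on `{-1,1}^n` of
degree at most `d` -/
def values (d : ℕ) : Set ℝ :=
  {t | ∃ (n : ℕ) (f : (Fin n → ℤˣ) → ℤˣ), 1 ≤ n ∧ DegLE f d ∧ t = ∑ i, fhat f {i}}

/-- `M(d)` -/
noncomputable def M (d : ℕ) : ℝ := sSup (values d)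

theorem bddAbove_values (d : ℕ) : BddAbove (values d) := by
  refine ⟨d, ?_⟩
  rintro t ⟨n, f, -, hf, rfl⟩
  exact lin_le f d hf

theorem le_M {n d : ℕ} (f : (Fin n → ℤˣ) → ℤˣ) (hn : 1 ≤ n) (hf : DegLE f d) : lin f ≤ M d :=
  le_csSup (bddAbove_values d) ⟨n, f, hn, hf, rfl⟩

/-- the constant function `1` on one bit -/
theorem nonempty_values (d : ℕ) : (values d).Nonempty := by
  refine ⟨_, 1, fun _ => 1, le_refl 1, ?_, rfl⟩
  apply DegLE.mono (a := 0) _ (Nat.zero_le d)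
  rw [degLE_iff]
  simpa using PolyLE.const (ι := Fin 1) 1

theorem M_mono {a b : ℕ} (h : a ≤ b) : M a ≤ M b := by
  apply csSup_le (nonempty_values a)
  rintro t ⟨n, f, hn, hf, rfl⟩
  exact le_M f hn (hf.mono h)

/-- the dictator function -/
theorem one_le_M {d : ℕ} (hd : 1 ≤ d) : 1 ≤ M d := by
  have h1 : DegLE (fun x : Fin 1 → ℤˣ => x 0) 1 := by
    rw [degLE_iff]
    exact ⟨MvPolynomial.X 0, by simp [MvPolynomial.totalDegree_X], fun x => by simp⟩
  have h2 := le_M _ (le_refl 1) (h1.mono hd)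
  have h3 : lin (fun x : Fin 1 → ℤˣ => x 0) = 1 := by
    unfold lin fhat rcoeff
    simp only [chi_singleton, Finset.univ_unique, Fin.default_eq_zero, Finset.sum_singleton,
      unit_sq]
    rw [Finset.sum_const, Finset.card_univ, nsmul_eq_mul, mul_one, card_cube]
    field_simp
  rw [h3] at h2
  exact h2

/-- oddization, with values in `Fin` -/
theorem exists_balanced {n d : ℕ} (f : (Fin n → ℤˣ) → ℤˣ) (hd : Odd d) (hf : DegLE f d) :
    ∃ g : (Fin (n + 1) → ℤˣ) → ℤˣ, DegLE g d ∧ fhat g ∅ = 0 ∧ lin g = lin f + |fhat f ∅| := by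
  obtain ⟨g, hg, hb, hl⟩ := exists_odd hd hf
  let e : Option (Fin n) ≃ Fin (n + 1) := (finSuccEquiv n).symm
  exact ⟨reindex e g, degLE_reindex e hg, by rw [fhat_empty_reindex, hb],
    by rw [lin_reindex, hl]⟩

theorem add_abs_le_M {n d : ℕ} (f : (Fin n → ℤˣ) → ℤˣ) (hd : Odd d) (hf : DegLE f d) :
    lin f + |fhat f ∅| ≤ M d := by
  obtain ⟨g, hg, _, hl⟩ := exists_balanced f hd hf
  rw [← hl]
  exact le_M g (Nat.succ_le_succ (Nat.zero_le n)) hg

/-- supermultiplicativity -/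
theorem M_mul {a b : ℕ} (ha : Odd a) (hb : Odd b) : M a * M b ≤ M (a * b) := by
  have hMb : 0 ≤ M b := le_trans zero_le_one (one_le_M hb.pos)
  have hMb' : 0 < M b := lt_of_lt_of_le one_pos (one_le_M hb.pos)
  rw [← le_div_iff₀ hMb']
  apply csSup_le (nonempty_values a)
  rintro t ⟨n, f, hn, hf, rfl⟩
  change lin f ≤ _
  rw [le_div_iff₀ hMb']
  rcases le_or_gt (lin f) 0 with h0 | h0
  · calc lin f * M b ≤ 0 := mul_nonpos_of_nonpos_of_nonneg h0 hMb
      _ ≤ M (a * b) := le_trans zero_le_one (one_le_M (ha.mul hb).pos)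
  · rw [mul_comm, ← le_div_iff₀ h0]
    apply csSup_le (nonempty_values b)
    rintro t ⟨m, g, hm, hg, rfl⟩
    change lin g ≤ _
    rw [le_div_iff₀ h0]
    obtain ⟨g', hg', hgb, hgl⟩ := exists_balanced g hb hg
    let e : Fin n × Fin (m + 1) ≃ Fin (n * (m + 1)) := finProdFinEquiv
    have h1 := le_M (reindex e (comp f g')) (Nat.mul_pos hn (Nat.succ_pos m))
      (degLE_reindex e (degLE_comp hf hg'))
    rw [lin_reindex, lin_comp f hgb, hgl] at h1
    calc lin g * lin f ≤ (lin g + |fhat g ∅|) * lin f := by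
          apply mul_le_mul_of_nonneg_right _ h0.le
          linarith [abs_nonneg (fhat g ∅)]
      _ = lin f * (lin g + |fhat g ∅|) := mul_comm _ _
      _ ≤ M (a * b) := h1

theorem M_pow {d : ℕ} (hd : Odd d) (k : ℕ) : M d ^ (k + 1) ≤ M (d ^ (k + 1)) := by
  induction k with
  | zero => simp
  | succ k ih =>
    rw [pow_succ, pow_succ d (k + 1)]
    refine le_trans ?_ (M_mul (hd.pow) hd)
    apply mul_le_mul_of_nonneg_right ih
    exact le_trans zero_le_one (one_le_M hd.pos)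

theorem sharp_of_weak {α C : ℝ} (h : ∀ d : ℕ, 1 ≤ d → M d ≤ C * (d : ℝ) ^ α) {d : ℕ}
    (hd : Odd d) : M d ≤ (d : ℝ) ^ α := by
  by_contra hlt
  push Not at hlt
  have hdpos : (0 : ℝ) < (d : ℝ) := by exact_mod_cast hd.pos
  have hP : (0 : ℝ) < (d : ℝ) ^ α := Real.rpow_pos_of_pos hdpos α
  have hr : 1 < M d / (d : ℝ) ^ α := (one_lt_div hP).mpr hlt
  obtain ⟨k, hk⟩ := pow_unbounded_of_one_lt C hr
  have h1 : C < (M d / (d : ℝ) ^ α) ^ (k + 1) := by
    refine lt_of_lt_of_le hk ?_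
    exact pow_le_pow_right₀ hr.le (Nat.le_succ k)
  have h2 := M_pow hd k
  have h3 := h (d ^ (k + 1)) (Nat.pow_pos hd.pos)
  have h4 : (((d ^ (k + 1) : ℕ) : ℝ)) ^ α = ((d : ℝ) ^ α) ^ (k + 1) := by
    push_cast
    rw [← Real.rpow_natCast, ← Real.rpow_mul hdpos.le, mul_comm, Real.rpow_mul hdpos.le,
      Real.rpow_natCast]
  rw [h4] at h3
  rw [div_pow, lt_div_iff₀ (by positivity)] at h1
  linarith

/-- **P047.** For odd `d` the supremum `M(d)` is supermultiplicative and dominates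
`∑ᵢ f̂({i}) + |f̂(∅)|`; for every exponent `α ≥ 0` the bound `M(d) = O(d^α)` is equivalent to
`M(d) ≤ d^α` for all odd `d`. In particular the weak form `M(d) ≤ C √d` of Q1 holds if and only if
the sharp form `M(d) ≤ √d` holds for all odd `d`, and then `M(d) ≤ √(d+1)` for all `d ≥ 1`. -/
theorem result :
    (∀ d : ℕ, BddAbove (values d)) ∧
    (∀ a b : ℕ, Odd a → Odd b → M a * M b ≤ M (a * b)) ∧
    (∀ (n d : ℕ) (f : (Fin n → ℤˣ) → ℤˣ), Odd d → DegLE f d →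
      (∑ i, fhat f {i}) + |fhat f ∅| ≤ M d) ∧
    (∀ α : ℝ, 0 ≤ α →
      ((∃ C : ℝ, ∀ d : ℕ, 1 ≤ d → M d ≤ C * (d : ℝ) ^ α) ↔
        (∀ d : ℕ, Odd d → M d ≤ (d : ℝ) ^ α))) ∧
    ((∃ C : ℝ, ∀ d : ℕ, 1 ≤ d → M d ≤ C * Real.sqrt d) ↔
      (∀ d : ℕ, Odd d → M d ≤ Real.sqrt d)) ∧
    ((∃ C : ℝ, ∀ d : ℕ, 1 ≤ d → M d ≤ C * Real.sqrt d) →
      ∀ d : ℕ, 1 ≤ d → M d ≤ Real.sqrt (d + 1)) := by
  have key : ∀ α : ℝ, 0 ≤ α →
      ((∃ C : ℝ, ∀ d : ℕ, 1 ≤ d → M d ≤ C * (d : ℝ) ^ α) ↔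
        (∀ d : ℕ, Odd d → M d ≤ (d : ℝ) ^ α)) := by
    intro α hα
    constructor
    · rintro ⟨C, hC⟩ d hd
      exact sharp_of_weak hC hd
    · intro h
      refine ⟨2 ^ α, fun d hd => ?_⟩
      have h1 : Odd (2 * (d / 2) + 1) := ⟨d / 2, rfl⟩
      have h2 : d ≤ 2 * (d / 2) + 1 := by omega
      have h3 : (2 * (d / 2) + 1 : ℕ) ≤ 2 * d := by omega
      calc M d ≤ M (2 * (d / 2) + 1) := M_mono h2
        _ ≤ ((2 * (d / 2) + 1 : ℕ) : ℝ) ^ α := h _ h1
        _ ≤ ((2 * d : ℕ) : ℝ) ^ α :=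
            Real.rpow_le_rpow (by positivity) (by exact_mod_cast h3) hα
        _ = 2 ^ α * (d : ℝ) ^ α := by
            push_cast
            rw [Real.mul_rpow (by norm_num) (by positivity)]
  have key2 : ((∃ C : ℝ, ∀ d : ℕ, 1 ≤ d → M d ≤ C * Real.sqrt d) ↔
      (∀ d : ℕ, Odd d → M d ≤ Real.sqrt d)) := by
    have := key (1 / 2) (by norm_num)
    simpa only [Real.sqrt_eq_rpow] using this
  refine ⟨bddAbove_values, fun a b ha hb => M_mul ha hb,
    fun n d f hd hf => add_abs_le_M f hd hf, key, key2, ?_⟩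
  intro h d hd
  have h1 := key2.mp h
  rcases Nat.even_or_odd d with he | ho
  · have h2 := h1 (d + 1) he.add_one
    refine (M_mono (Nat.le_succ d)).trans ?_
    push_cast at h2
    exact h2
  · refine (h1 d ho).trans (Real.sqrt_le_sqrt ?_)
    linarith

end Vale.Agent.Results.P047.WeakIffStrong
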